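import Mathlib

/-! P110: Kronecker products of Littlewood polynomials. -/

namespace Vale.Agent.Results.P110.Kronecker

open Finset Complex

/-- the polynomial `∑_{k < N} a_k z^k` -/
noncomputable def ev (N : ℕ) (a : ℕ → ℝ) (z : ℂ) : ℂ := ∑ k ∈ range N, (a k : ℂ) * z ^ k

/-- the first `N` coefficients are `1` or `-1` -/
def Littlewood (N : ℕ) (a : ℕ → ℝ) : Prop := ∀ k < N, a k = 1 ∨ a k = -1

/-- `(1 - c) √N ≤ |P(z)| ≤ (1 + c) √N` on the unit circle -/
def Flat (c : ℝ) (N : ℕ) (a : ℕ → ℝ) : Prop :=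
  ∀ z : ℂ, ‖z‖ = 1 → (1 - c) * √N ≤ ‖ev N a z‖ ∧ ‖ev N a z‖ ≤ (1 + c) * √N

/-- `P(z) = Q(z) R(z^m)`, with `Q` of length `m` and `R` of length `k` -/
def IsKron (m k : ℕ) (a q r : ℕ → ℝ) : Prop := ∀ i < m, ∀ j < k, a (i + m * j) = q i * r j

/-- not a Kronecker product of two Littlewood polynomials of lengths at least two -/
def Indec (N : ℕ) (a : ℕ → ℝ) : Prop :=
  ¬ ∃ m k q r, 2 ≤ m ∧ 2 ≤ k ∧ N = m * k ∧ Littlewood m q ∧ Littlewood k r ∧ IsKron m k a q r

theorem geom_zero {m : ℕ} {x : ℂ} (hx : x ^ m = 1) (h1 : x ≠ 1) : ∑ j ∈ range m, x ^ j = 0 := by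
  have h := geom_sum_mul x m
  rw [hx, sub_self] at h
  exact (mul_eq_zero.mp h).resolve_right (sub_ne_zero.mpr h1)

theorem parseval {m : ℕ} (hm : 1 ≤ m) (u : ℕ → ℂ) :
    ∃ w : ℂ, ‖w‖ = 1 ∧ w ^ m = 1 ∧
      ∑ j ∈ range m, ‖∑ a ∈ range m, u a * (w ^ j) ^ a‖ ^ 2 = m * ∑ a ∈ range m, ‖u a‖ ^ 2 := by
  have hm0 : m ≠ 0 := by omega
  have hprim := Complex.isPrimitiveRoot_exp m hm0
  set w : ℂ := Complex.exp (2 * Real.pi * Complex.I / m) with hw
  have hwn : ‖w‖ = 1 := hprim.norm'_eq_one hm0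
  refine ⟨w, hwn, hprim.pow_eq_one, ?_⟩
  have hcw : (starRingEnd ℂ) w = w⁻¹ := by
    rw [Complex.inv_def, Complex.normSq_eq_norm_sq, hwn]
    simp
  have hw0 : w ≠ 0 := hprim.ne_zero hm0
  have key : ∀ a ∈ range m, ∀ b ∈ range m,
      ∑ j ∈ range m, (w ^ j) ^ a * (starRingEnd ℂ) ((w ^ j) ^ b) = if a = b then (m : ℂ) else 0 := by
    intro a ha b hb
    have e1 : ∀ j ∈ range m, (w ^ j) ^ a * (starRingEnd ℂ) ((w ^ j) ^ b)
        = (w ^ a * (w⁻¹) ^ b) ^ j := by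
      intro j _
      rw [map_pow, map_pow, hcw, mul_pow, ← pow_mul, ← pow_mul, ← pow_mul, ← pow_mul,
        mul_comm a j, mul_comm b j]
    rw [Finset.sum_congr rfl e1]
    by_cases hab : a = b
    · subst hab
      rw [if_pos rfl]
      have : w ^ a * (w⁻¹) ^ a = 1 := by rw [← mul_pow, mul_inv_cancel₀ hw0, one_pow]
      rw [this]
      simp
    · rw [if_neg hab]
      apply geom_zero
      · rw [mul_pow, ← pow_mul, ← pow_mul, mul_comm a m, mul_comm b m, pow_mul, pow_mul, inv_pow,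
          hprim.pow_eq_one]
        simp
      · intro h
        apply hab
        have h2 : w ^ a = w ^ b := by
          have := congrArg (fun y => y * w ^ b) h
          simp only [one_mul] at this
          rw [mul_assoc, ← mul_pow, inv_mul_cancel₀ hw0, one_pow, mul_one] at this
          exact this
        exact hprim.pow_inj (mem_range.mp ha) (mem_range.mp hb) h2
  have hC : ((∑ j ∈ range m, ‖∑ a ∈ range m, u a * (w ^ j) ^ a‖ ^ 2 : ℝ) : ℂ)
      = ((m * ∑ a ∈ range m, ‖u a‖ ^ 2 : ℝ) : ℂ) := by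
    push_cast
    have e2 : ∀ j ∈ range m, ((‖∑ a ∈ range m, u a * (w ^ j) ^ a‖ : ℂ)) ^ 2
        = ∑ a ∈ range m, ∑ b ∈ range m, (u a * (starRingEnd ℂ) (u b))
          * ((w ^ j) ^ a * (starRingEnd ℂ) ((w ^ j) ^ b)) := by
      intro j _
      rw [← Complex.mul_conj', map_sum, Finset.sum_mul_sum]
      apply Finset.sum_congr rfl
      intro a _
      apply Finset.sum_congr rfl
      intro b _
      rw [map_mul]
      ring
    rw [Finset.sum_congr rfl e2, Finset.sum_comm]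
    rw [Finset.mul_sum]
    apply Finset.sum_congr rfl
    intro a ha
    rw [Finset.sum_comm]
    have e3 : ∀ b ∈ range m, ∑ j ∈ range m, (u a * (starRingEnd ℂ) (u b))
          * ((w ^ j) ^ a * (starRingEnd ℂ) ((w ^ j) ^ b))
        = (u a * (starRingEnd ℂ) (u b)) * (if a = b then (m : ℂ) else 0) := by
      intro b hb
      rw [← Finset.mul_sum, key a ha b hb]
    rw [Finset.sum_congr rfl e3]
    simp only [mul_ite, mul_zero, Finset.sum_ite_eq, ha, if_true]
    rw [Complex.mul_conj']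
    ring
  exact_mod_cast hC

theorem ev_kron {m k : ℕ} {a q r : ℕ → ℝ} (h : IsKron m k a q r) (z : ℂ) :
    ev (m * k) a z = ev m q z * ev k r (z ^ m) := by
  unfold ev
  have hsum : ∀ f : ℕ → ℂ, ∑ t ∈ range (m * k), f t = ∑ j ∈ range k, ∑ i ∈ range m, f (i + m * j) := by
    intro f
    induction k with
    | zero => simp
    | succ k ih =>
      rw [Nat.mul_succ, Finset.sum_range_add, ih (fun i hi j hj => h i hi j (by omega)),
        Finset.sum_range_succ]
      congr 1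
      apply Finset.sum_congr rfl
      intro i _
      rw [add_comm]
  rw [hsum, Finset.sum_mul_sum, Finset.sum_comm]
  apply Finset.sum_congr rfl
  intro i hi
  apply Finset.sum_congr rfl
  intro j hj
  rw [h i (mem_range.mp hi) j (mem_range.mp hj)]
  push_cast
  rw [pow_add, pow_mul]
  ring

theorem ev_mul_root {m : ℕ} (q : ℕ → ℝ) (z w : ℂ) (j : ℕ) :
    ev m q (z * w ^ j) = ∑ a ∈ range m, ((q a : ℂ) * z ^ a) * (w ^ j) ^ a := by
  unfold ev
  apply Finset.sum_congr rfl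
  intro a _
  rw [mul_pow]
  ring

/-- the outer factor is as flat as the product -/
theorem outer {m k : ℕ} (hm : 1 ≤ m) {a q r : ℕ → ℝ} {c : ℝ} (hc0 : 0 ≤ c) (hc1 : c < 1)
    (hq : Littlewood m q) (h : IsKron m k a q r) (hf : Flat c (m * k) a) : Flat c k r := by
  intro v hv
  obtain ⟨z, hz⟩ := IsAlgClosed.exists_pow_nat_eq v (show 0 < m by omega)
  have hzn : ‖z‖ = 1 := by
    have : ‖z‖ ^ m = 1 := by rw [← norm_pow, hz, hv]
    exact (pow_eq_one_iff_of_nonneg (norm_nonneg z) (by omega)).mp this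
  obtain ⟨w, hw1, hwm, hpar⟩ := parseval hm (fun a => (q a : ℂ) * z ^ a)
  have hzj : ∀ j, ‖z * w ^ j‖ = 1 := by
    intro j
    rw [norm_mul, norm_pow, hzn, hw1, one_pow, one_mul]
  have hzjm : ∀ j, (z * w ^ j) ^ m = v := by
    intro j
    rw [mul_pow, hz, ← pow_mul, mul_comm j m, pow_mul, hwm, one_pow, mul_one]
  have hsum : ∑ j ∈ range m, ‖ev m q (z * w ^ j)‖ ^ 2 = m * m := by
    have e1 : ∀ j ∈ range m, ‖ev m q (z * w ^ j)‖ ^ 2
        = ‖∑ a ∈ range m, ((q a : ℂ) * z ^ a) * (w ^ j) ^ a‖ ^ 2 := by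
      intro j _
      rw [ev_mul_root]
    rw [Finset.sum_congr rfl e1, hpar]
    have e2 : ∀ a ∈ range m, ‖(q a : ℂ) * z ^ a‖ ^ 2 = 1 := by
      intro a ha
      rw [norm_mul, norm_pow, hzn, one_pow, mul_one, Complex.norm_real]
      rcases hq a (mem_range.mp ha) with h1 | h1
      · rw [h1]; simp
      · rw [h1]; simp
    rw [Finset.sum_congr rfl e2]
    simp
  have hmR : (1 : ℝ) ≤ m := by exact_mod_cast hm
  have hP : ∀ j ∈ range m, (1 - c) ^ 2 * (m * k) ≤ ‖ev m q (z * w ^ j)‖ ^ 2 * ‖ev k r v‖ ^ 2 ∧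
      ‖ev m q (z * w ^ j)‖ ^ 2 * ‖ev k r v‖ ^ 2 ≤ (1 + c) ^ 2 * (m * k) := by
    intro j _
    have h1 := hf (z * w ^ j) (hzj j)
    rw [ev_kron h, hzjm j, norm_mul] at h1
    have hs : (√((m * k : ℕ) : ℝ)) ^ 2 = (m : ℝ) * k := by
      rw [Real.sq_sqrt (by positivity)]
      push_cast
      ring
    constructor
    · have h2 := pow_le_pow_left₀ (mul_nonneg (by linarith) (Real.sqrt_nonneg _)) h1.1 2
      rw [mul_pow, hs, mul_pow] at h2
      exact h2
    · have h2 := pow_le_pow_left₀ (by positivity) h1.2 2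
      rw [mul_pow (1 + c), hs, mul_pow] at h2
      exact h2
  have hlow := Finset.sum_le_sum (fun j hj => (hP j hj).1)
  have hup := Finset.sum_le_sum (fun j hj => (hP j hj).2)
  have hS : ∑ j ∈ range m, ‖ev m q (z * w ^ j)‖ ^ 2 * ‖ev k r v‖ ^ 2
      = ((m : ℝ) * m) * ‖ev k r v‖ ^ 2 := by
    rw [← Finset.sum_mul, hsum]
  rw [hS, Finset.sum_const, card_range, nsmul_eq_mul] at hlow hup
  have hm0 : (0 : ℝ) < (m : ℝ) * m := by positivity
  have l1 : (1 - c) ^ 2 * k ≤ ‖ev k r v‖ ^ 2 := by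
    have : ((m : ℝ) * m) * ((1 - c) ^ 2 * k) ≤ ((m : ℝ) * m) * ‖ev k r v‖ ^ 2 := by linarith
    exact le_of_mul_le_mul_left this hm0
  have l2 : ‖ev k r v‖ ^ 2 ≤ (1 + c) ^ 2 * k := by
    have : ((m : ℝ) * m) * ‖ev k r v‖ ^ 2 ≤ ((m : ℝ) * m) * ((1 + c) ^ 2 * k) := by linarith
    exact le_of_mul_le_mul_left this hm0
  have hsk : (√(k : ℝ)) ^ 2 = k := Real.sq_sqrt (by positivity)
  constructor
  · apply le_of_sq_le_sq _ (norm_nonneg _)
    rw [mul_pow, hsk]
    exact l1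
  · apply le_of_sq_le_sq _ (by positivity)
    rw [mul_pow, hsk]
    exact l2

/-- the inner factor is nearly as flat as the product -/
theorem inner {m k : ℕ} (hm : 1 ≤ m) (hk : 1 ≤ k) {a q r : ℕ → ℝ} {c : ℝ} (hc0 : 0 ≤ c)
    (hc1 : c < 1) (hq : Littlewood m q) (h : IsKron m k a q r) (hf : Flat c (m * k) a) :
    Flat (2 * c / (1 - c)) m q := by
  have hR := outer hm hc0 hc1 hq h hf
  intro z hz
  have hzm : ‖z ^ m‖ = 1 := by rw [norm_pow, hz, one_pow]
  have h1 := hf z hz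
  have h2 := hR (z ^ m) hzm
  rw [ev_kron h, norm_mul] at h1
  have hc' : 0 < 1 - c := by linarith
  have hk0 : 0 < √(k : ℝ) := Real.sqrt_pos.mpr (by exact_mod_cast hk)
  have hs : √((m * k : ℕ) : ℝ) = √(m : ℝ) * √(k : ℝ) := by
    push_cast
    exact Real.sqrt_mul (by positivity) _
  rw [hs] at h1
  set A := ‖ev m q z‖ with hA
  set B := ‖ev k r (z ^ m)‖ with hB
  set s := √(m : ℝ) with hsd
  set t := √(k : ℝ) with htd
  have hA0 : 0 ≤ A := norm_nonneg _
  have hs0 : 0 ≤ s := Real.sqrt_nonneg _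
  have u1 : A * (1 - c) ≤ (1 + c) * s := by
    have : A * ((1 - c) * t) ≤ (1 + c) * (s * t) :=
      (mul_le_mul_of_nonneg_left h2.1 hA0).trans h1.2
    have h3 : t * (A * (1 - c)) ≤ t * ((1 + c) * s) := by linarith
    exact le_of_mul_le_mul_left h3 hk0
  have u2 : (1 - c) * s ≤ A * (1 + c) := by
    have : (1 - c) * (s * t) ≤ A * ((1 + c) * t) :=
      h1.1.trans (mul_le_mul_of_nonneg_left h2.2 hA0)
    have h3 : t * ((1 - c) * s) ≤ t * (A * (1 + c)) := by linarith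
    exact le_of_mul_le_mul_left h3 hk0
  constructor
  · have e : 1 - 2 * c / (1 - c) = (1 - 3 * c) / (1 - c) := by
      field_simp
      ring
    rw [e, div_mul_eq_mul_div, div_le_iff₀ hc']
    have h4 : (1 - c) * ((1 - c) * s) ≤ (1 - c) * (A * (1 + c)) :=
      mul_le_mul_of_nonneg_left u2 hc'.le
    nlinarith [mul_nonneg hc0 hA0, mul_nonneg hc0 hs0, mul_nonneg (mul_nonneg hc0 hc0) hs0,
      mul_nonneg (mul_nonneg hc0 hc'.le) hA0, mul_nonneg (mul_nonneg hc0 hc'.le) hs0]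
  · have e : 1 + 2 * c / (1 - c) = (1 + c) / (1 - c) := by
      field_simp
      ring
    rw [e, div_mul_eq_mul_div, le_div_iff₀ hc']
    exact u1

/-- no short polynomial is very flat -/
theorem lower {n : ℕ} (hn : 2 ≤ n) {a : ℕ → ℝ} {c : ℝ} (hc0 : 0 ≤ c) (hc1 : c ≤ 1)
    (ha : Littlewood n a) (hf : Flat c n a) : 2 / (3 * (n : ℝ)) ≤ c := by
  obtain ⟨m, rfl⟩ : ∃ m, n = m + 1 := ⟨n - 1, by omega⟩
  have hm : 1 ≤ m := by omega
  obtain ⟨w, hw1, hwm, hpar⟩ := parseval hm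
    (fun i => (a i : ℂ) + if i = 0 then (a m : ℂ) else 0)
  have hev : ∀ j ∈ range m, ‖ev (m + 1) a (w ^ j)‖ ^ 2
      = ‖∑ i ∈ range m, ((a i : ℂ) + if i = 0 then (a m : ℂ) else 0) * (w ^ j) ^ i‖ ^ 2 := by
    intro j _
    congr 2
    unfold ev
    rw [Finset.sum_range_succ]
    have e1 : (w ^ j) ^ m = 1 := by rw [← pow_mul, mul_comm, pow_mul, hwm, one_pow]
    rw [e1, mul_one]
    simp_rw [add_mul]
    rw [Finset.sum_add_distrib]
    congr 1
    rw [Finset.sum_eq_single 0]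
    · simp
    · intro i _ hi
      simp [hi]
    · intro h
      exact absurd (mem_range.mpr (by omega)) h
  rw [← Finset.sum_congr rfl hev] at hpar
  have hnorm : ∑ i ∈ range m, ‖(a i : ℂ) + if i = 0 then (a m : ℂ) else 0‖ ^ 2
      = (m - 1 : ℝ) + (a 0 + a m) ^ 2 := by
    obtain ⟨l, rfl⟩ : ∃ l, m = l + 1 := ⟨m - 1, by omega⟩
    rw [Finset.sum_range_succ']
    have e2 : ∀ i ∈ range l, ‖(a (i + 1) : ℂ) + if i + 1 = 0 then (a (l + 1) : ℂ) else 0‖ ^ 2 = 1 := by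
      intro i hi
      rw [if_neg (by omega), add_zero, Complex.norm_real]
      have := mem_range.mp hi
      rcases ha (i + 1) (by omega) with h1 | h1
      · rw [h1]; simp
      · rw [h1]; simp
    rw [Finset.sum_congr rfl e2]
    rw [if_pos rfl, ← Complex.ofReal_add, Complex.norm_real, Real.norm_eq_abs, sq_abs]
    simp
  rw [hnorm] at hpar
  have hmR : (0 : ℝ) < m := by exact_mod_cast hm
  have hwj : ∀ j, ‖w ^ j‖ = 1 := fun j => by rw [norm_pow, hw1, one_pow]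
  have hs : (√((m + 1 : ℕ) : ℝ)) ^ 2 = (m : ℝ) + 1 := by
    rw [Real.sq_sqrt (by positivity)]
    push_cast
    ring
  have hlow : ∀ j ∈ range m, (1 - c) ^ 2 * ((m : ℝ) + 1) ≤ ‖ev (m + 1) a (w ^ j)‖ ^ 2 := by
    intro j _
    have h2 := pow_le_pow_left₀ (mul_nonneg (by linarith) (Real.sqrt_nonneg _))
      (hf (w ^ j) (hwj j)).1 2
    rwa [mul_pow, hs] at h2
  have hup : ∀ j ∈ range m, ‖ev (m + 1) a (w ^ j)‖ ^ 2 ≤ (1 + c) ^ 2 * ((m : ℝ) + 1) := by
    intro j _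
    have h2 := pow_le_pow_left₀ (norm_nonneg _) (hf (w ^ j) (hwj j)).2 2
    rwa [mul_pow, hs] at h2
  have hlow' := Finset.sum_le_sum hlow
  have hup' := Finset.sum_le_sum hup
  rw [Finset.sum_const, card_range, nsmul_eq_mul, hpar] at hlow' hup'
  have l1 := le_of_mul_le_mul_left hlow' hmR
  have l2 := le_of_mul_le_mul_left hup' hmR
  have hnR : (0 : ℝ) < (m : ℝ) + 1 := by positivity
  push_cast
  rw [div_le_iff₀ (by positivity)]
  have hcc : c ^ 2 ≤ c := by nlinarith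
  rcases ha 0 (by omega) with h1 | h1 <;> rcases ha m (by omega) with h2 | h2 <;>
    rw [h1, h2] at l1 l2 <;>
    nlinarith [mul_nonneg hc0 hnR.le, mul_le_mul_of_nonneg_right hcc hnR.le,
      mul_nonneg (mul_nonneg hc0 hc0) hnR.le]

theorem flat_mono {c c' : ℝ} {N : ℕ} {a : ℕ → ℝ} (h : c ≤ c') (hf : Flat c N a) : Flat c' N a := by
  intro z hz
  have hs : 0 ≤ √(N : ℝ) := Real.sqrt_nonneg _
  obtain ⟨h1, h2⟩ := hf z hz
  constructor
  · nlinarith
  · nlinarith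

theorem exists_indec {c : ℝ} (hc0 : 0 ≤ c) (hc1 : c < 1) : ∀ N : ℕ, 2 ≤ N → ∀ a : ℕ → ℝ,
    Littlewood N a → Flat c N a →
    ∃ n b, 2 ≤ n ∧ n ≤ N ∧ Littlewood n b ∧ Flat c n b ∧ Indec n b := by
  intro N
  induction N using Nat.strong_induction_on with
  | _ N ih =>
    intro hN a ha hf
    by_cases hI : Indec N a
    · exact ⟨N, a, hN, le_rfl, ha, hf, hI⟩
    · unfold Indec at hI
      push Not at hI
      obtain ⟨m, k, q, r, hm, hk, hNk, hq, hr, hkr⟩ := hI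
      subst hNk
      have hkN : k < m * k := by nlinarith
      obtain ⟨n, b, h1, h2, h3, h4, h5⟩ := ih k hkN hk r hr (outer (by omega) hc0 hc1 hq hkr hf)
      exact ⟨n, b, h1, by omega, h3, h4, h5⟩

/-- (1) factors of a flat Kronecker product are flat; (2) a Kronecker product with a factor of
length `m` or `k` is never flatter than a constant over `m` or `k`; (3) nearly flat Littlewood
polynomials of arbitrarily large length exist iff indecomposable ones do. -/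
theorem result :
    (∀ (m k : ℕ) (a q r : ℕ → ℝ) (c : ℝ), 2 ≤ m → 2 ≤ k → 0 ≤ c → c < 1 → Littlewood m q →
      Littlewood k r → IsKron m k a q r → Flat c (m * k) a →
      Flat c k r ∧ Flat (2 * c / (1 - c)) m q ∧ 2 / (3 * (k : ℝ)) ≤ c ∧ 2 / (9 * (m : ℝ)) ≤ c) ∧
    ((∀ c : ℝ, 0 < c → ∀ N₀ : ℕ, ∃ N ≥ N₀, ∃ a, Littlewood N a ∧ Flat c N a) ↔
      (∀ c : ℝ, 0 < c → ∀ N₀ : ℕ, ∃ N ≥ N₀, ∃ a, Littlewood N a ∧ Flat c N a ∧ Indec N a)) := by
  refine ⟨?_, ?_, ?_⟩
  · intro m k a q r c hm hk hc0 hc1 hq hr h hf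
    have h1 := outer (by omega) hc0 hc1 hq h hf
    have h2 := inner (by omega) (by omega) hc0 hc1 hq h hf
    refine ⟨h1, h2, lower hk hc0 hc1.le hr h1, ?_⟩
    have hmR : (2 : ℝ) ≤ m := by exact_mod_cast hm
    by_cases h3 : c ≤ 1 / 3
    · have h4 : 2 * c / (1 - c) ≤ 1 := by
        rw [div_le_one (by linarith)]; linarith
      have h5 := lower hm (div_nonneg (by linarith) (by linarith)) h4 hq h2
      rw [div_le_div_iff₀ (by positivity) (by linarith)] at h5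
      rw [div_le_iff₀ (by positivity)]
      nlinarith
    · push Not at h3
      rw [div_le_iff₀ (by positivity)]
      nlinarith
  · intro h c hc N₀
    set c' : ℝ := min (min c (1 / 2)) (1 / (2 * ((N₀ : ℝ) + 1))) with hc'
    have hpos : 0 < c' := by
      rw [hc']
      apply lt_min (lt_min hc (by norm_num))
      positivity
    have hle : c' ≤ c := (min_le_left _ _).trans (min_le_left _ _)
    have hhalf : c' ≤ 1 / 2 := (min_le_left _ _).trans (min_le_right _ _)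
    have hN0 : c' ≤ 1 / (2 * ((N₀ : ℝ) + 1)) := min_le_right _ _
    obtain ⟨N, hN, a, ha, hf⟩ := h c' hpos 2
    obtain ⟨n, b, h1, -, h3, h4, h5⟩ := exists_indec hpos.le (by linarith) N hN a ha hf
    refine ⟨n, ?_, b, h3, flat_mono hle h4, h5⟩
    have h6 := (lower h1 hpos.le (by linarith) h3 h4).trans hN0
    have hnR : (2 : ℝ) ≤ n := by exact_mod_cast h1
    rw [div_le_div_iff₀ (by positivity) (by positivity)] at h6
    have h7 : (N₀ : ℝ) ≤ n := by nlinarith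
    exact_mod_cast h7
  · intro h c hc N₀
    obtain ⟨N, hN, a, ha, hf, -⟩ := h c hc N₀
    exact ⟨N, hN, a, ha, hf⟩

end Vale.Agent.Results.P110.Kronecker
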